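import Mathlib

open MeasureTheory Filter Topology Set
open scoped ENNReal RealInnerProductSpace

namespace Vale.Agent.P119.Stmt

section Measures

variable {P : Type} [MeasureSpace P]

/-- Probability densities. -/
def IsDensity (f : P → ℝ) : Prop := (∀ z, 0 ≤ f z) ∧ Integrable f ∧ ∫ z, f z = 1

/-- The `L¹` distance. -/
noncomputable def l1Dist (F G : P → ℝ) : ℝ≥0∞ := ∫⁻ z, ‖F z - G z‖ₑ

/-- `F` is the density of the (signed) law with expectation `L`. -/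
def Represents (F : P → ℝ) (L : (P → ℝ) → ℝ) : Prop :=
  Integrable F ∧ ∀ a : P → ℝ, Measurable a → (∃ C, ∀ z, |a z| ≤ C) → ∫ z, a z * F z = L a

/-- The sum over the number `N` of particles of the integral of `W_N`. -/
noncomputable def gcSum (W : (N : ℕ) → (Fin N → P) → ℝ) : ℝ := ∑' N : ℕ, ∫ Z, W N Z

/-- `F` is (a version of) the rescaled factorial marginal of order `s` of the particles that are at
`S N Z` when they started at `Z`, where the law of `(N, Z)` is proportional to `W`. -/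
def IsMarginal (μ : ℝ) (W : (N : ℕ) → (Fin N → P) → ℝ) (S : (N : ℕ) → (Fin N → P) → Fin N → P)
    (s : ℕ) (F : (Fin s → P) → ℝ) : Prop :=
  Represents F fun a => (μ ^ s)⁻¹ *
    (gcSum (fun N Z => W N Z * ∑ σ : Fin s ↪ Fin N, a (fun k => S N Z (σ k))) / gcSum W)

end Measures

variable {E : Type} [NormedAddCommGroup E] [InnerProductSpace ℝ E]

/-- Stability of a pair potential. -/
def IsStable (Φ : E → ℝ) : Prop :=
  ∃ B : ℝ, 0 ≤ B ∧ ∀ (n : ℕ) (x : Fin n → E), Function.Injective x →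
    -(B * n) ≤ ∑ i, ∑ j ∈ Finset.Ioi i, Φ (x i - x j)

/-- The potentials of the problem (`Φ 0` is the value of the `C²` extension if there is one). -/
def IsPotential (Φ : E → ℝ) : Prop :=
  (∀ x y : E, x ≠ 0 → ‖x‖ = ‖y‖ → Φ x = Φ y) ∧ (∀ x : E, 1 ≤ ‖x‖ → Φ x = 0) ∧
    (ContDiff ℝ 2 Φ ∨ (ContDiffOn ℝ 2 Φ {0}ᶜ ∧ Tendsto Φ (𝓝[≠] 0) atTop ∧
      ∀ᶠ x in 𝓝[≠] (0 : E), fderiv ℝ Φ x x ≤ 0))

/-- Repulsive, superstable, or with stable `Φ - l y·∇Φ`. -/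
def IsTame (Φ : E → ℝ) : Prop :=
  (∀ y : E, y ≠ 0 → fderiv ℝ Φ y y ≤ 0) ∨
  (∃ A : ℝ, 0 < A ∧ IsStable (fun y => Φ y - (Metric.ball (0 : E) 1).indicator (fun _ => A) y)) ∨
  ∃ l : ℝ, 0 < l ∧ IsStable (fun y => Φ y - l * fderiv ℝ Φ y y)

/-- Gaussians in the collision invariants of the free expansion (`c ≥ 0`: not contracting). -/
def IsGlobalMaxwellian (f₀ : E × E → ℝ) : Prop :=
  ∃ (a b c k : ℝ) (p q : E) (Ω : E →L[ℝ] E), 0 ≤ c ∧ (∀ x, ⟪x, Ω x⟫ = 0) ∧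
    ∀ x v : E, f₀ (x, v) =
      Real.exp (-(a * ‖x‖ ^ 2 + b * ‖v‖ ^ 2 - c * ⟪x, v⟫ + ⟪x, Ω v⟫ + ⟪p, x⟫ + ⟪q, v⟫ + k))

/-- Configurations in which all distances are `> ε`. -/
def excl (ε : ℝ) (N : ℕ) : Set (Fin N → E × E) :=
  {Z | ∀ i j, i ≠ j → ε < ‖(Z i).1 - (Z j).1‖}

/-- `μ^N / N! 1{|x_i - x_j| > ε for all i ≠ j} ∏ f₀(z_i)`. -/
noncomputable def weight (f₀ : E × E → ℝ) (ε μ : ℝ) (N : ℕ) (Z : Fin N → E × E) : ℝ :=
  μ ^ N / (N.factorial : ℝ) * (excl ε N).indicator (fun Z => ∏ i, f₀ (Z i)) Z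

/-- `z` is a global solution of Newton's equations for `N` particles, started at `Z`;
`G` stands for `∇Φ`. -/
def IsNewton (G : E → E) (ε : ℝ) {N : ℕ} (Z : Fin N → E × E) (z : ℝ → Fin N → E × E) : Prop :=
  z 0 = Z ∧ ∀ (t : ℝ) (i : Fin N), HasDerivAt (fun s => (z s i).1) (z t i).2 t ∧
    HasDerivAt (fun s => (z s i).2)
      (-(ε⁻¹ • ∑ j ∈ Finset.univ.erase i, G (ε⁻¹ • ((z t i).1 - (z t j).1)))) t

/-- `V'` is the outgoing velocity of the relative motion entering along `ρ + t V`. -/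
def Scatters (G : E → E) (V ρ V' : E) : Prop :=
  ∃ r w : ℝ → E, (∀ t, HasDerivAt r (w t) t ∧ HasDerivAt w (-((2 : ℝ) • G (r t))) t) ∧
    (∀ᶠ t in atBot, r t = ρ + t • V) ∧ ∀ᶠ t in atTop, 1 ≤ ‖r t‖ ∧ w t = V'

open Classical in
/-- The outgoing velocity `V'`, where it is defined. -/
noncomputable def outVel (G : E → E) (V ρ : E) : E :=
  if h : ∃ V', Scatters G V ρ V' then h.choose else V

variable [MeasureSpace E]

/-- The convergence asserted in the problem, for the kinetic solution `f` on `[0, T]`. -/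
def KineticLimit (G : E → E) (f₀ : E × E → ℝ) (T : ℝ) (f : ℝ → E × E → ℝ) (s : ℕ) : Prop :=
  ∃ F : ℝ → ℝ → (Fin s → E × E) → ℝ,
    (∀ ε ∈ Ioo (0 : ℝ) 1, ∀ t ∈ Icc 0 T, IsMarginal (ε ^ 2)⁻¹ (weight f₀ ε (ε ^ 2)⁻¹)
      (fun _ Z => Classical.epsilon (IsNewton G ε Z) t) s (F ε t)) ∧
    Tendsto (fun ε => ⨆ t ∈ Icc 0 T, l1Dist (F ε t) (fun z => ∏ k, f t (z k))) (𝓝[>] 0) (𝓝 0)

variable [BorelSpace E]

/-- The collision operator `Q_Φ(h, h)(v)` for a velocity profile `h`. -/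
noncomputable def collision (G : E → E) (h : E → ℝ) (v : E) : ℝ :=
  ∫ vs : E, ∫ ρ in {ρ : E | ‖ρ‖ < 1 ∧ ⟪ρ, v - vs⟫ = 0},
    ‖v - vs‖ * (h ((2 : ℝ)⁻¹ • (v + vs + outVel G (v - vs) ρ)) *
      h ((2 : ℝ)⁻¹ • (v + vs - outVel G (v - vs) ρ)) - h v * h vs) ∂μHE[2]

/-- `f` is a solution showing that `[0, T]` is a regular kinetic interval. -/
def IsRegularSolution (G : E → E) (γ : ℝ) (f₀ : E × E → ℝ) (T : ℝ) (f : ℝ → E × E → ℝ) :
    Prop :=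
  f 0 = f₀ ∧ ContDiffOn ℝ 1 (fun p : ℝ × E × E => f p.1 p.2) (Icc 0 T ×ˢ univ) ∧
  (∀ t ∈ Icc 0 T, IsDensity (f t) ∧ ∀ x v : E,
    derivWithin (fun s => f s (x, v)) (Icc 0 T) t + fderiv ℝ (fun y => f t (y, v)) x v =
      collision G (fun w => f t (x, w)) v) ∧
  ∃ C, ∀ t ∈ Icc 0 T, ∀ x v : E, Real.exp (γ * ‖v‖ ^ 2) * f t (x, v) ≤ C

/-- The norm `‖h‖_γ`, with value in `[0, ∞]`; `lat k` stands for `k`. -/
noncomputable def gnorm (lat : (Fin 3 → ℤ) → E) (γ : ℝ) (h : E × E → ℝ) : ℝ≥0∞ :=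
  ∑' k, ⨆ x : Metric.closedBall (lat k) 1, ⨆ v : E,
    ENNReal.ofReal (Real.exp (γ * ‖v‖ ^ 2) * |h (x, v)|)

/-- The data of the problem: `C¹` probability densities with `‖f₀‖_{2β} + ‖∇ₓ f₀‖_{2β} < ∞`. -/
def IsDatum (lat : (Fin 3 → ℤ) → E) (γ : ℝ) (f₀ : E × E → ℝ) : Prop :=
  ContDiff ℝ 1 f₀ ∧ IsDensity f₀ ∧ gnorm lat γ f₀ < ∞ ∧
    gnorm lat γ (fun z => ‖fderiv ℝ (fun y => f₀ (y, z.2)) z.1‖) < ∞

/-- The statement -/
def Main [CompleteSpace E] (lat : (Fin 3 → ℤ) → E) : Prop :=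
  ∀ (Φ : E → ℝ) (γ T : ℝ) (f₀ : E × E → ℝ), IsPotential Φ → IsStable Φ → IsTame Φ →
    0 < γ → 0 < T → IsDatum lat γ f₀ → IsGlobalMaxwellian f₀ →
    (∀ ε ∈ Ioo (0 : ℝ) 1, ∀ N, ∀ Z ∈ excl ε N, ∃! z, IsNewton (gradient Φ) ε Z z) ∧
    (∃ f, IsRegularSolution (gradient Φ) γ f₀ T f) ∧
    ∀ f, IsRegularSolution (gradient Φ) γ f₀ T f → ∀ s : ℕ, KineticLimit (gradient Φ) f₀ T f s

end Vale.Agent.P119.Stmt
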